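import Crest.Agent.N250.EX.Core
import Crest.Agent.N250.B2.Defs

/-!
# Row 250 (helper21): `EXStmt`
-/

set_option autoImplicit false
set_option linter.unusedSectionVars false

open Metric Set Filter Topology Function

noncomputable section

namespace Crest.Agent.N250.EX

open Nest B2

section
variable {Y A G : Type*} [NormedAddCommGroup Y] [NormedSpace ℂ Y] [NormedAddCommGroup A]
  [NormedSpace ℂ A] [NormedAddCommGroup G] [NormedSpace ℂ G] [CompleteSpace G]
  {U : Set Y} {ρ0 M C c : ℝ} {F : ℝ → Y × A → G}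

theorem exp_le_pow (hc : 0 < c) (N : ℕ) : ∃ K, 0 ≤ K ∧ ∀ ρ, 0 < ρ → Real.exp (-c / ρ) ≤ K * ρ ^ N := by
  refine ⟨N.factorial / c ^ N, by positivity, fun ρ hρ => ?_⟩
  have h1 := Real.pow_div_factorial_le_exp (c / ρ) (by positivity) N
  have h3 : (0 : ℝ) < N.factorial := by positivity
  rw [neg_div, Real.exp_neg, inv_le_comm₀ (Real.exp_pos _) (by positivity)]
  refine le_trans (le_of_eq ?_) h1
  rw [div_pow]; field_simp

theorem exp_mono (hc : 0 < c) {s t : ℝ} (hs : 0 < s) (h : s ≤ t) :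
    Real.exp (-c / s) ≤ Real.exp (-c / t) := by
  rw [Real.exp_le_exp, neg_div, neg_div, neg_le_neg_iff]
  exact div_le_div_of_nonneg_left hc.le hs h

/-- the expansion with the sharp rate -/
theorem Sc.expand' (h : Sc U ρ0 M C c F) (N : ℕ) : ∃ K, 0 ≤ K ∧ ∀ ρ ∈ Ioc 0 ρ0,
    ∀ z ∈ U ×ˢ ball (0 : A) ρ, ‖F ρ z - tr ρ0 F N z‖ ≤ K * (‖z.2‖ ^ N + Real.exp (-c / ρ)) := by
  obtain ⟨K, hK, H⟩ := h.expand N
  obtain ⟨L, hL, HL⟩ := exp_le_pow h.cpos N
  have hC := h.Cnn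
  refine ⟨K + 2 * C + K * (L * 16 ^ N), by positivity, fun ρ hρ z hz => ?_⟩
  have p1 : 0 ≤ ‖z.2‖ ^ N := by positivity
  have p2 := (Real.exp_pos (-c / ρ)).le
  have hρ0 := hρ.1
  rcases lt_or_ge ‖z.2‖ (ρ / 4) with ha | ha
  · have h2 : ρ / 2 ∈ Ioc 0 ρ0 := ⟨by positivity, by linarith [hρ.2]⟩
    have h4 : ρ / 4 ∈ Ioc 0 ρ0 := ⟨by positivity, by linarith [hρ.2]⟩
    have e1 := h.inc ρ hρ (ρ / 2) ⟨le_rfl, by linarith⟩ z
      ⟨hz.1, mem_ball_zero_iff.2 (by linarith)⟩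
    have e2 := h.inc _ h2 (ρ / 4) ⟨by linarith, by linarith⟩ z ⟨hz.1, mem_ball_zero_iff.2 ha⟩
    have e3 := H _ h4 z ⟨hz.1, mem_ball_zero_iff.2 ha⟩
    rw [show 4 * (ρ / 4) = ρ by ring] at e3
    have e4 := mul_le_mul_of_nonneg_left (exp_mono h.cpos h2.1 (by linarith : ρ / 2 ≤ ρ)) hC
    have t1 := norm_sub_le_norm_sub_add_norm_sub (F ρ z) (F (ρ / 2) z) (tr ρ0 F N z)
    have t2 := norm_sub_le_norm_sub_add_norm_sub (F (ρ / 2) z) (F (ρ / 4) z) (tr ρ0 F N z)
    rw [norm_sub_rev] at e1 e2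
    have : 0 ≤ K * (L * 16 ^ N) * (‖z.2‖ ^ N + Real.exp (-c / ρ)) := by positivity
    nlinarith [mul_nonneg hC p1]
  · have e1 := H ρ hρ z hz
    have e2 : Real.exp (-c / (4 * ρ)) ≤ L * 16 ^ N * ‖z.2‖ ^ N := by
      refine (HL _ (by positivity)).trans ?_
      rw [mul_assoc, ← mul_pow]
      exact mul_le_mul_of_nonneg_left (pow_le_pow_left₀ (by positivity) (by linarith) N) hL
    have e3 := mul_le_mul_of_nonneg_left e2 hK
    have : 0 ≤ K * (L * 16 ^ N) * Real.exp (-c / ρ) := by positivity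
    nlinarith [mul_nonneg hC p1, mul_nonneg hC p2, mul_nonneg hK p2]

end

theorem co_real {r : ℝ} (hr : 0 < r) (n : ℕ) : ∀ {g : ℂ → ℂ}, DifferentiableOn ℂ g (ball 0 r) →
    (∀ t : ℝ, |t| < r → (g t).im = 0) → (co n g).im = 0 := by
  induction n with
  | zero => intro g _ h; simpa [co] using h 0 (by simpa using hr)
  | succ n ih =>
    intro g hg h
    have hD := D_diff hr hg
    have hne : ∀ t : ℝ, t ≠ 0 → |t| < r → (D g t).im = 0 := fun t ht h1 => by
      have e : D g t = ((t⁻¹ : ℝ) : ℂ) * (g t - g 0) := by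
        simp [D, dslope_of_ne _ (Complex.ofReal_ne_zero.2 ht), slope]
      have h0 : (g 0).im = 0 := by simpa using h 0 (by simpa using hr)
      rw [e, Complex.im_ofReal_mul, Complex.sub_im, h t h1, h0]; simp
    refine ih hD fun t h1 => ?_
    by_cases ht : t = 0
    · subst ht
      have c1 : ContinuousAt (fun s : ℝ => (D g s).im) 0 :=
        Complex.continuous_im.continuousAt.comp (ContinuousAt.comp (f := fun s : ℝ => (s : ℂ))
          (by rw [Complex.ofReal_zero]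
              exact (hD.differentiableAt (ball_mem_nhds _ hr)).continuousAt)
          Complex.continuous_ofReal.continuousAt)
      refine tendsto_nhds_unique_of_eventuallyEq (l := 𝓝[≠] (0 : ℝ))
        (c1.tendsto.mono_left nhdsWithin_le_nhds) tendsto_const_nhds ?_
      filter_upwards [mem_nhdsWithin_of_mem_nhds (ball_mem_nhds (0 : ℝ) hr), self_mem_nhdsWithin]
        with s a b using hne s b (by simpa using a)
    · exact hne t ht h1

variable {ι κ Γ : Type} [Fintype ι] [Fintype κ] [DecidableEq κ] {Q : Cells Γ}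
  {F : (κ → Γ) → (ι ⊕ κ → ℂ) → ℂ} {r c C : ℝ}

theorem adm_disc (Q : Cells Γ) {ρ : ℝ} (h0 : 0 < ρ) (h1 : ρ < Q.ρ0) :
    Q.Adm (fun _ : κ => Q.disc ρ) := fun _ => Q.adm_disc ρ h0 h1

/-- comparison of any piece with a larger full disc -/
theorem cmp_disc (h : Wk Q F r c C) {U : κ → Γ} (hU : Q.Adm U) {ρ : ℝ} (h0 : 0 < ρ)
    (h1 : ρ < Q.ρ0) (hs : ∀ j, Q.sz (U j) ≤ ρ) {z : ι ⊕ κ → ℂ} (hz : z ∈ Q.Dom r U) :
    ‖F U z - F (fun _ => Q.disc ρ) z‖ ≤ Fintype.card κ * max C 0 * Real.exp (-c / ρ) := by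
  have key : ∀ s : Finset κ, ‖F U z - F (fun j => if j ∈ s then Q.disc ρ else U j) z‖ ≤
      s.card * max C 0 * Real.exp (-c / ρ) := by
    intro s
    induction s using Finset.induction_on with
    | empty => simp
    | insert j s hj ih =>
      set V : κ → Γ := fun j => if j ∈ s then Q.disc ρ else U j with hV
      have hVa : Q.Adm V := fun i => by
        simp only [hV]; split_ifs
        exacts [Q.adm_disc ρ h0 h1, hU i]
      have hzV : z ∈ Q.Dom r V := ⟨hz.1, fun i => by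
        simp only [hV]; split_ifs
        · rw [Q.dom_disc ρ h0 h1]
          exact ball_subset_ball (hs i) (Q.sub _ (hU i) (hz.2 i))
        · exact hz.2 i⟩
      have e : (fun i => if i ∈ insert j s then Q.disc ρ else U i) = update V j (Q.disc ρ) := by
        funext i
        by_cases hi : i = j
        · subst hi; simp
        · simp [hV, hi]
      have h2 := h.cmp V hVa j ρ (by simpa [hV, hj] using hs j) h1 z hzV
      have h3 := norm_sub_le_norm_sub_add_norm_sub (F U z) (F V z) (F (update V j (Q.disc ρ)) z)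
      have h4 := mul_le_mul_of_nonneg_right (le_max_left C 0) (Real.exp_pos (-c / ρ)).le
      rw [e, Finset.card_insert_of_notMem hj]
      push_cast
      linarith
  simpa using key Finset.univ

/-- the full-disc pieces on a product -/
def pc (Q : Cells Γ) (F : (κ → Γ) → (ι ⊕ κ → ℂ) → ℂ) (ρ : ℝ) (z : (ι → ℂ) × (κ → ℂ)) : ℂ :=
  F (fun _ => Q.disc ρ) (Sum.elim z.1 z.2)

/-- splitting of the coordinates -/
def sp (z : ι ⊕ κ → ℂ) : (ι → ℂ) × (κ → ℂ) := (fun i => z (Sum.inl i), aa z)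

theorem elim_sp (z : ι ⊕ κ → ℂ) : Sum.elim (sp z).1 (sp z).2 = z := by
  funext i; cases i <;> rfl

theorem mem_dom (hr : 0 < r) {ρ : ℝ} (h0 : 0 < ρ) (h1 : ρ < Q.ρ0) {z : (ι → ℂ) × (κ → ℂ)}
    (hz : z ∈ ball (0 : ι → ℂ) r ×ˢ ball (0 : κ → ℂ) ρ) :
    Sum.elim z.1 z.2 ∈ Q.Dom r (fun _ : κ => Q.disc ρ) :=
  ⟨(pi_norm_lt_iff hr).1 (mem_ball_zero_iff.1 hz.1), fun j => by
    rw [Q.dom_disc ρ h0 h1]
    exact mem_ball_zero_iff.2 ((pi_norm_lt_iff h0).1 (mem_ball_zero_iff.1 hz.2) j)⟩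

theorem sp_mem {z : ι ⊕ κ → ℂ} (hz : ‖z‖ < min r 1) :
    sp z ∈ ball (0 : ι → ℂ) r ×ˢ ball (0 : κ → ℂ) 1 := by
  have h := (norm_nonneg _).trans_lt hz
  rw [lt_min_iff] at h hz
  exact ⟨mem_ball_zero_iff.2 ((pi_norm_lt_iff h.1).2 fun i => (norm_le_pi_norm z _).trans_lt hz.1),
    mem_ball_zero_iff.2 ((pi_norm_lt_iff h.2).2 fun i => (norm_le_pi_norm z _).trans_lt hz.2)⟩

theorem sc_pc (h : Wk Q F r c C) : Sc (ball (0 : ι → ℂ) r) (min (Q.ρ0 / 2) 1) C
    (Fintype.card κ * max C 0) c (pc Q F) := by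
  have p0 := Q.ρ0_pos
  have hlt : ∀ ρ ∈ Ioc 0 (min (Q.ρ0 / 2) 1), ρ < Q.ρ0 := fun ρ hρ =>
    (hρ.2.trans (min_le_left _ _)).trans_lt (by linarith)
  have p1 : 0 < min (Q.ρ0 / 2) 1 := by positivity
  refine ⟨isOpen_ball, p1, min_le_right _ _, h.c_pos, by positivity, fun ρ hρ => ?_,
    fun z hz => ?_, fun ρ hρ ρ' hρ' z hz => ?_⟩
  · refine (h.hol _ (adm_disc Q hρ.1 (hlt ρ hρ))).comp
      (f := fun z : (ι → ℂ) × (κ → ℂ) => Sum.elim z.1 z.2) ?_
      fun z hz => mem_dom h.r_pos hρ.1 (hlt ρ hρ) hz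
    refine (differentiable_pi.2 fun i => ?_).differentiableOn
    cases i <;> simp only [Sum.elim_inl, Sum.elim_inr] <;> fun_prop
  · have := hlt _ ⟨p1, le_rfl⟩
    exact h.bdd _ (adm_disc Q p1 this) _ (mem_dom h.r_pos p1 this hz)
  · have a0 : 0 < ρ' := lt_of_lt_of_le (by linarith [hρ.1]) hρ'.1
    have a1 : ρ' < Q.ρ0 := hρ'.2.trans_lt (hlt ρ hρ)
    exact cmp_disc h (adm_disc Q a0 a1) hρ.1 (hlt ρ hρ)
      (fun _ => (Q.sz_disc ρ' a0 a1).trans_le hρ'.2) (mem_dom h.r_pos a0 a1 hz)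

theorem tendsto_exp_inv (hc : 0 < c) :
    Tendsto (fun ρ : ℝ => Real.exp (-c / ρ)) (𝓝[>] 0) (𝓝 0) := by
  refine Real.tendsto_exp_atBot.comp ?_
  exact tendsto_inv_nhdsGT_zero.const_mul_atTop_of_neg (r := -c) (by linarith)

theorem exStmt : EXStmt := by
  intro ι κ Γ _ _ _ Q F r c C h
  have S := sc_pc h
  set ρ1 := min (Q.ρ0 / 2) 1 with hρ1
  have p0 := Q.ρ0_pos
  have hlt : ∀ ρ, ρ ≤ ρ1 → ρ < Q.ρ0 := fun ρ hρ =>
    (hρ.trans (min_le_left _ _)).trans_lt (by linarith)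
  have hb : ∀ N, ∃ K, ∀ z ∈ ball (0 : ι ⊕ κ → ℂ) (min r 1), ‖tr ρ1 (pc Q F) N (sp z)‖ ≤ K := by
    intro N
    choose K hK using S.cf_le
    exact ⟨∑ n ∈ Finset.range N, K n, fun z hz => (norm_sum_le _ _).trans
      (Finset.sum_le_sum fun n _ => hK n _ (sp_mem (mem_ball_zero_iff.1 hz)))⟩
  refine ⟨fun N z => tr ρ1 (pc Q F) N (sp z), min r 1, lt_min h.r_pos one_pos, min_le_left _ _,
    fun N => ?_, hb, fun N x hx => ?_, fun N => ?_, fun N => ?_⟩
  · refine (S.tr_diff N).comp (f := sp) ?_ fun z hz => sp_mem (mem_ball_zero_iff.1 hz)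
    refine Differentiable.differentiableOn ?_
    unfold sp aa
    fun_prop
  · have hn : ‖(ofR x : ι ⊕ κ → ℂ)‖ < min r 1 := by
      refine (pi_norm_lt_iff ((norm_nonneg _).trans_lt hx)).2 fun i => ?_
      simpa [ofR] using (norm_le_pi_norm x i).trans_lt hx
    have hm := sp_mem hn
    simp only [tr, Complex.im_sum]
    refine Finset.sum_eq_zero fun n _ => ?_
    refine tendsto_nhds_unique ((Complex.continuous_im.tendsto _).comp
      (S.fam.tendsto (S.summ n) hm)) (tendsto_const_nhds.congr fun k => ?_)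
    have q := rr_mem S.pos k
    refine (co_real q.1 n (S.fam.hd k _ hm) fun t ht => ?_).symm
    have e : Sum.elim (sp (ofR x)).1 ((t : ℂ) • (sp (ofR x)).2) =
        ofR (Sum.elim (fun i => x (Sum.inl i)) fun j => t * x (Sum.inr j)) := by
      funext i; cases i <;> simp [sp, aa, ofR]
    have hd := mem_dom h.r_pos q.1 (hlt _ q.2) (mem_ray hm (μ := t) (by simpa using ht))
    simp only [e] at hd
    simpa only [ray, pc, e] using h.real _ q.1 (hlt _ q.2) _ hd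
  · obtain ⟨K, hK⟩ := S.cf_le_pow N
    refine ⟨K, fun z hz => ?_⟩
    simp only [tr, Finset.sum_range_succ, add_sub_cancel_left]
    exact hK _ (sp_mem (mem_ball_zero_iff.1 hz))
  · obtain ⟨K, hK0, hK⟩ := S.expand' N
    obtain ⟨B, hB⟩ := hb N
    have hC := S.Cnn
    set L := Fintype.card κ * max C 0 with hL
    have main : ∀ U, Q.Adm U → ∀ z ∈ Q.Dom r U, ∀ ρ ∈ Ioc 0 ρ1, (∀ j, Q.sz (U j) ≤ ρ) →
        ‖F U z - tr ρ1 (pc Q F) N (sp z)‖ ≤ (K + L) * (‖aa z‖ ^ N + Real.exp (-c / ρ)) := by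
      intro U hU z hz ρ hρ hs
      have e1 := cmp_disc h hU hρ.1 (hlt _ hρ.2) hs hz
      have e2 := hK ρ hρ (sp z) ⟨mem_ball_zero_iff.2 ((pi_norm_lt_iff h.r_pos).2 hz.1),
        mem_ball_zero_iff.2 ((pi_norm_lt_iff hρ.1).2 fun j =>
          (mem_ball_zero_iff.1 (Q.sub _ (hU j) (hz.2 j))).trans_le (hs j))⟩
      rw [pc, elim_sp] at e2
      have e3 := norm_sub_le_norm_sub_add_norm_sub (F U z) (F (fun _ => Q.disc ρ) z)
        (tr ρ1 (pc Q F) N (sp z))
      have : 0 ≤ L * ‖aa z‖ ^ N := by positivity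
      change _ ≤ K * (‖aa z‖ ^ N + _) at e2
      nlinarith
    have pe := Real.exp_pos (-c / ρ1)
    refine ⟨K + L + max (C + B) 0 / Real.exp (-c / ρ1), fun U hU z hz hn => ?_⟩
    have p1 : 0 ≤ ‖aa z‖ ^ N := by positivity
    have p2 : 0 ≤ Q.er c U := Finset.sum_nonneg fun j _ => (Real.exp_pos _).le
    have p3 : 0 ≤ max (C + B) 0 / Real.exp (-c / ρ1) := by positivity
    rcases isEmpty_or_nonempty κ with hκ | hκ
    · have t : Tendsto (fun ρ : ℝ => (K + L) * (‖aa z‖ ^ N + Real.exp (-c / ρ))) (𝓝[>] 0)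
          (𝓝 ((K + L) * (‖aa z‖ ^ N + 0))) :=
        ((tendsto_exp_inv h.c_pos).const_add _).const_mul _
      have := ge_of_tendsto t (b := ‖F U z - tr ρ1 (pc Q F) N (sp z)‖) (by
        filter_upwards [Ioc_mem_nhdsGT S.pos] with ρ hρ
        exact main U hU z hz ρ hρ fun j => hκ.elim j)
      refine this.trans ?_
      exact mul_le_mul (by linarith) (by linarith) (by linarith) (by linarith)
    · obtain ⟨j, hj⟩ := Finite.exists_max fun j => Q.sz (U j)
      have s0 : 0 < Q.sz (U j) :=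
        (norm_nonneg _).trans_lt (mem_ball_zero_iff.1 (Q.sub _ (hU j) (hz.2 j)))
      have e0 : Real.exp (-c / Q.sz (U j)) ≤ Q.er c U :=
        Finset.single_le_sum (f := fun j => Real.exp (-c / Q.sz (U j)))
          (fun j _ => (Real.exp_pos _).le) (Finset.mem_univ j)
      rcases le_or_gt (Q.sz (U j)) ρ1 with hs | hs
      · refine (main U hU z hz _ ⟨s0, hs⟩ hj).trans ?_
        exact mul_le_mul (by linarith) (by linarith) (by positivity) (by linarith)
      · have e1 := (norm_sub_le _ _).trans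
          (add_le_add (h.bdd U hU z hz) (hB z (mem_ball_zero_iff.2 hn)))
        have e2 := (exp_mono h.c_pos S.pos hs.le).trans e0
        calc _ ≤ max (C + B) 0 / Real.exp (-c / ρ1) * Real.exp (-c / ρ1) := by
              rw [div_mul_cancel₀ _ pe.ne']; exact e1.trans (le_max_left _ _)
          _ ≤ _ := mul_le_mul (by linarith) (by linarith) pe.le (by linarith)

end Crest.Agent.N250.EX

end
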