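import Crest.Agent.N250.B1.Nest

/-!
# Row 250 (helper21): expansions from full-disc cells

`F ρ` is holomorphic on `U × ball 0 ρ`, neighbouring scales differ by `C exp (-c / ρ)`.  Then there
are holomorphic `cf n`, homogeneous of degree `n` in the second variable, with
`‖F ρ z - ∑_{n<N} cf n z‖ ≤ C_N (‖z.2‖ ^ N + exp (-c / (4 ρ)))`.
-/

set_option autoImplicit false
set_option linter.unusedSectionVars false

open Metric Set Filter Topology Complex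

noncomputable section

namespace Crest.Agent.N250.EX

open Nest

variable {Y A G : Type*} [NormedAddCommGroup Y] [NormedSpace ℂ Y] [NormedAddCommGroup A]
  [NormedSpace ℂ A] [NormedAddCommGroup G] [NormedSpace ℂ G] [CompleteSpace G]

theorem D_scale (s : ℂ) (g : ℂ → G) : D (fun μ => g (s * μ)) = fun μ => s • D g (s * μ) := by
  funext μ
  by_cases h : μ = 0
  · subst h
    simp only [D, dslope_same, mul_zero]
    simpa using deriv_comp_mul_left s g 0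
  · by_cases hs : s = 0
    · subst hs; simp [D, dslope_of_ne _ h, slope]
    · simp only [D, dslope_of_ne _ h, dslope_of_ne _ (mul_ne_zero hs h), slope, smul_smul,
        sub_zero, mul_zero, vsub_eq_sub]
      congr 1
      field_simp

theorem D_smul (s : ℂ) (g : ℂ → G) : D (fun μ => s • g μ) = fun μ => s • D g μ := by
  funext μ
  by_cases h : μ = 0
  · subst h
    simp only [D, dslope_same]
    exact deriv_fun_const_smul_field s g
  · simp only [D, dslope_of_ne _ h, slope, vsub_eq_sub, ← smul_sub, smul_comm s]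

theorem iter_smul (s : ℂ) (n : ℕ) : ∀ g : ℂ → G,
    D^[n] (fun μ => s • g μ) = fun μ => s • D^[n] g μ := by
  induction n with
  | zero => exact fun _ => rfl
  | succ n ih => intro g; rw [Function.iterate_succ_apply, D_smul, ih]; rfl

theorem iter_scale (s : ℂ) (n : ℕ) : ∀ g : ℂ → G,
    D^[n] (fun μ => g (s * μ)) = fun μ => s ^ n • D^[n] g (s * μ) := by
  induction n with
  | zero => intro g; simp
  | succ n ih =>
    intro g
    rw [Function.iterate_succ_apply, D_scale, iter_smul s n fun μ => D g (s * μ), ih]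
    simp only [smul_smul, pow_succ', Function.iterate_succ_apply]

theorem co_scale (s : ℂ) (n : ℕ) (g : ℂ → G) : co n (fun μ => g (s * μ)) = s ^ n • co n g := by
  simp [co, iter_scale]

/-- full-disc cells at all scales `ρ ≤ ρ0` -/
structure Sc (U : Set Y) (ρ0 M C c : ℝ) (F : ℝ → Y × A → G) : Prop where
  isOpen : IsOpen U
  pos : 0 < ρ0
  le1 : ρ0 ≤ 1
  cpos : 0 < c
  Cnn : 0 ≤ C
  hd : ∀ ρ ∈ Ioc 0 ρ0, DifferentiableOn ℂ (F ρ) (U ×ˢ ball 0 ρ)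
  le : ∀ z ∈ U ×ˢ ball (0 : A) ρ0, ‖F ρ0 z‖ ≤ M
  inc : ∀ ρ ∈ Ioc 0 ρ0, ∀ ρ' ∈ Icc (ρ / 2) ρ, ∀ z ∈ U ×ˢ ball (0 : A) ρ',
    ‖F ρ' z - F ρ z‖ ≤ C * Real.exp (-c / ρ)

/-- dyadic radii -/
def rr (ρ0 : ℝ) (k : ℕ) : ℝ := ρ0 / 2 ^ k

/-- the rays -/
def ray (ρ0 : ℝ) (F : ℝ → Y × A → G) (k : ℕ) (z : Y × A) (μ : ℂ) : G :=
  F (rr ρ0 k) (z.1, μ • z.2)

/-- the homogeneous parts -/
def cf (ρ0 : ℝ) (F : ℝ → Y × A → G) (n : ℕ) : Y × A → G := cl (ray ρ0 F) n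

/-- the truncations -/
def tr (ρ0 : ℝ) (F : ℝ → Y × A → G) (N : ℕ) (z : Y × A) : G :=
  ∑ n ∈ Finset.range N, cf ρ0 F n z

variable {U : Set Y} {ρ0 M C c : ℝ} {F : ℝ → Y × A → G}

theorem rr_pos (h : 0 < ρ0) (k : ℕ) : 0 < rr ρ0 k := by unfold rr; positivity

theorem rr_succ (ρ0 : ℝ) (k : ℕ) : rr ρ0 (k + 1) = rr ρ0 k / 2 := by
  unfold rr; rw [pow_succ, div_div]

theorem rr_le (h : 0 < ρ0) (k j : ℕ) : rr ρ0 (k + j) ≤ rr ρ0 k := by
  unfold rr
  gcongr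
  · norm_num
  · omega

theorem rr_mem (h : 0 < ρ0) (k : ℕ) : rr ρ0 k ∈ Ioc 0 ρ0 :=
  ⟨rr_pos h k, by simpa [rr] using rr_le h 0 k⟩

theorem mem_ray {r : ℝ} {z : Y × A} (hz : z ∈ U ×ˢ ball (0 : A) 1) {μ : ℂ}
    (hμ : μ ∈ ball (0 : ℂ) r) : ((z.1, μ • z.2) : Y × A) ∈ U ×ˢ ball (0 : A) r := by
  refine ⟨hz.1, ?_⟩
  have h1 := mem_ball_zero_iff.1 hz.2
  have h2 := mem_ball_zero_iff.1 hμ
  rw [mem_ball_zero_iff, norm_smul]
  exact (mul_le_of_le_one_right (norm_nonneg _) h1.le).trans_lt h2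

theorem Sc.fam (h : Sc U ρ0 M C c F) : Fam (U ×ˢ ball (0 : A) 1) (rr ρ0)
    (fun k => C * Real.exp (-c / rr ρ0 k)) M (ray ρ0 F) where
  pos := rr_pos h.pos
  anti k := rr_le h.pos k 1
  le0 z hz μ hμ := by
    have : rr ρ0 0 = ρ0 := by simp [rr]
    rw [this] at hμ
    simpa [ray, this] using h.le _ (mem_ray hz hμ)
  hd k z hz := (h.hd _ (rr_mem h.pos k)).comp (f := fun μ : ℂ => ((z.1, μ • z.2) : Y × A))
    (by fun_prop) fun μ hμ => mem_ray hz hμ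
  par k μ hμ := (h.hd _ (rr_mem h.pos k)).comp (f := fun z : Y × A => ((z.1, μ • z.2) : Y × A))
    (by fun_prop) fun z hz => mem_ray hz hμ
  inc k z hz μ hμ := h.inc _ (rr_mem h.pos k) _ ⟨(rr_succ ρ0 k).ge, rr_le h.pos k 1⟩ _
    (mem_ray hz hμ)

theorem term_le (hc : 0 < c) {r : ℝ} (hr : 0 < r) (n : ℕ) :
    (2 / (r / 2)) ^ n * Real.exp (-c / r) ≤
      4 ^ n * ((n + 1).factorial / (c / 2) ^ (n + 1)) * r * Real.exp (-c / (2 * r)) := by
  have h1 := Real.pow_div_factorial_le_exp (c / 2 / r) (by positivity) (n + 1)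
  have h2 : Real.exp (-c / r) = Real.exp (-c / (2 * r)) / Real.exp (c / 2 / r) := by
    rw [← Real.exp_sub]; congr 1; field_simp; ring
  have h3 : (0 : ℝ) < (n + 1).factorial := by positivity
  rw [h2, ← mul_div_assoc, div_le_iff₀ (Real.exp_pos _)]
  calc (2 / (r / 2)) ^ n * Real.exp (-c / (2 * r))
      = 4 ^ n * ((n + 1).factorial / (c / 2) ^ (n + 1)) * r * Real.exp (-c / (2 * r)) *
        ((c / 2 / r) ^ (n + 1) / (n + 1).factorial) := by
        rw [show (2 / (r / 2)) = 4 / r by field_simp; norm_num]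
        simp only [div_pow]
        field_simp
        ring
    _ ≤ _ := by gcongr

/-- the constant of the tails -/
def Kc (C c : ℝ) (n : ℕ) : ℝ := C * (4 ^ n * ((n + 1).factorial / (c / 2) ^ (n + 1)))

theorem Sc.Kc_nn (h : Sc U ρ0 M C c F) (n : ℕ) : 0 ≤ Kc C c n := by
  have := h.cpos; have := h.Cnn; unfold Kc; positivity

theorem Sc.term (h : Sc U ρ0 M C c F) (n k j : ℕ) :
    (2 / rr ρ0 (k + j + 1)) ^ n * (C * Real.exp (-c / rr ρ0 (k + j))) ≤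
      Kc C c n * Real.exp (-c / (2 * rr ρ0 k)) * (1 / 2) ^ j := by
  have h0 := rr_pos h.pos (k + j)
  have h1 := term_le h.cpos h0 n
  have h2 : Real.exp (-c / (2 * rr ρ0 (k + j))) ≤ Real.exp (-c / (2 * rr ρ0 k)) := by
    rw [Real.exp_le_exp, neg_div, neg_div, neg_le_neg_iff]
    have := rr_le h.pos k j
    have := h.cpos
    gcongr
  have h3 : rr ρ0 (k + j) ≤ (1 / 2) ^ j := by
    rw [add_comm]
    refine (rr_le h.pos j k).trans ?_
    rw [rr, one_div, inv_pow, div_eq_mul_inv]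
    exact mul_le_of_le_one_left (by positivity) h.le1
  have := h.cpos
  have := h.Cnn
  rw [rr_succ, mul_left_comm]
  calc _ ≤ C * (4 ^ n * ((n + 1).factorial / (c / 2) ^ (n + 1)) * (1 / 2) ^ j *
        Real.exp (-c / (2 * rr ρ0 k))) := by
        refine mul_le_mul_of_nonneg_left (h1.trans ?_) h.Cnn
        gcongr
    _ = _ := by unfold Kc; ring

theorem Sc.term_nn (h : Sc U ρ0 M C c F) (n k : ℕ) :
    0 ≤ (2 / rr ρ0 (k + 1)) ^ n * (C * Real.exp (-c / rr ρ0 k)) := by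
  have := rr_pos h.pos (k + 1); have := h.Cnn; positivity

theorem Sc.summ' (h : Sc U ρ0 M C c F) (n k : ℕ) :
    Summable fun j => (2 / rr ρ0 (k + j + 1)) ^ n * (C * Real.exp (-c / rr ρ0 (k + j))) :=
  .of_nonneg_of_le (fun j => h.term_nn n (k + j)) (h.term n k) (summable_geometric_two.mul_left _)

theorem Sc.summ (h : Sc U ρ0 M C c F) (n : ℕ) :
    Summable fun j => (2 / rr ρ0 (j + 1)) ^ n * (C * Real.exp (-c / rr ρ0 j)) := by
  simpa using h.summ' n 0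

theorem Sc.tsum_le (h : Sc U ρ0 M C c F) (n k : ℕ) :
    ∑' j, (2 / rr ρ0 (k + j + 1)) ^ n * (C * Real.exp (-c / rr ρ0 (k + j))) ≤
      Kc C c n * Real.exp (-c / (2 * rr ρ0 k)) * 2 := by
  refine ((h.summ' n k).tsum_le_tsum (h.term n k) (summable_geometric_two.mul_left _)).trans_eq ?_
  rw [tsum_mul_left, tsum_geometric_two]

theorem Sc.cf_diff (h : Sc U ρ0 M C c F) (n : ℕ) :
    DifferentiableOn ℂ (cf ρ0 F n) (U ×ˢ ball 0 1) :=
  h.fam.cl_diff (h.isOpen.prod isOpen_ball) (h.summ n)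

theorem Sc.tr_diff (h : Sc U ρ0 M C c F) (N : ℕ) :
    DifferentiableOn ℂ (tr ρ0 F N) (U ×ˢ ball 0 1) :=
  DifferentiableOn.fun_sum fun n _ => h.cf_diff n

theorem Sc.cf_le (h : Sc U ρ0 M C c F) (n : ℕ) :
    ∃ K, ∀ z ∈ U ×ˢ ball (0 : A) 1, ‖cf ρ0 F n z‖ ≤ K :=
  ⟨_, fun _ hz => h.fam.cl_le (h.summ n) hz⟩

/-- homogeneity -/
theorem Sc.cf_smul (h : Sc U ρ0 M C c F) (n : ℕ) {z : Y × A} (hz : z ∈ U ×ˢ ball (0 : A) 1)
    {s : ℂ} (hs : (z.1, s • z.2) ∈ U ×ˢ ball (0 : A) 1) :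
    cf ρ0 F n (z.1, s • z.2) = s ^ n • cf ρ0 F n z := by
  refine tendsto_nhds_unique (h.fam.tendsto (h.summ n) hs) ?_
  refine ((h.fam.tendsto (h.summ n) hz).const_smul (s ^ n)).congr fun k => ?_
  rw [← co_scale]
  congr 1
  funext μ
  simp only [ray, smul_smul, mul_comm]

/-- writing a point on a ray -/
theorem exists_ray {a : A} {r : ℝ} (ha : ‖a‖ < r) :
    ∃ (s : ℝ) (b : A), 0 ≤ s ∧ s < r ∧ s ≤ 2 * ‖a‖ ∧ ‖b‖ < 1 ∧ (s : ℂ) • b = a := by
  by_cases h0 : a = 0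
  · exact ⟨0, 0, le_rfl, by simpa [h0] using ha, by simp, by simp, by simp [h0]⟩
  have hp := norm_pos_iff.2 h0
  have h1 : ‖a‖ < min (2 * ‖a‖) ((‖a‖ + r) / 2) := lt_min (by linarith) (by linarith)
  set s := min (2 * ‖a‖) ((‖a‖ + r) / 2)
  have hs : 0 < s := hp.trans h1
  refine ⟨s, (s : ℂ)⁻¹ • a, hs.le, (min_le_right _ _).trans_lt (by linarith), min_le_left _ _,
    ?_, ?_⟩
  · rw [norm_smul, norm_inv, Complex.norm_real, Real.norm_of_nonneg hs.le, inv_mul_lt_iff₀ hs]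
    simpa using h1
  · rw [smul_smul, mul_inv_cancel₀ (by exact_mod_cast hs.ne'), one_smul]

theorem Sc.cf_le_pow (h : Sc U ρ0 M C c F) (n : ℕ) :
    ∃ K, ∀ z ∈ U ×ˢ ball (0 : A) 1, ‖cf ρ0 F n z‖ ≤ K * ‖z.2‖ ^ n := by
  obtain ⟨K, hK⟩ := h.cf_le n
  refine ⟨max K 0 * 2 ^ n, fun z hz => ?_⟩
  obtain ⟨s, b, h0, -, h2, h3, h4⟩ := exists_ray (mem_ball_zero_iff.1 hz.2)
  have hb : (z.1, b) ∈ U ×ˢ ball (0 : A) 1 := ⟨hz.1, mem_ball_zero_iff.2 h3⟩
  have := h.cf_smul n hb (s := s) (by simpa only [h4] using hz)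
  simp only [h4] at this
  rw [this, norm_smul, norm_pow, Complex.norm_real, Real.norm_of_nonneg h0, mul_assoc,
    ← mul_pow, mul_comm]
  exact mul_le_mul ((hK _ hb).trans (le_max_left _ _)) (by gcongr) (by positivity)
    (le_max_right _ _)

theorem exists_scale (h0 : 0 < ρ0) {ρ : ℝ} (hρ : ρ ∈ Ioc 0 ρ0) :
    ∃ k, ρ ∈ Icc (rr ρ0 k / 2) (rr ρ0 k) := by
  classical
  have hex : ∃ k, rr ρ0 (k + 1) ≤ ρ := by
    obtain ⟨k, hk⟩ := pow_unbounded_of_one_lt (ρ0 / ρ) (one_lt_two (α := ℝ))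
    refine ⟨k, (rr_le h0 k 1).trans ?_⟩
    rw [rr, div_le_iff₀ (by positivity)]
    rw [div_lt_iff₀ hρ.1] at hk
    linarith
  refine ⟨Nat.find hex, by rw [← rr_succ]; exact Nat.find_spec hex, ?_⟩
  rcases hk : Nat.find hex with _ | k
  · simpa [rr] using hρ.2
  · exact (not_le.1 (Nat.find_min hex (m := k) (by omega))).le

/-- **the expansion** -/
theorem Sc.expand (h : Sc U ρ0 M C c F) (N : ℕ) : ∃ K, 0 ≤ K ∧ ∀ ρ ∈ Ioc 0 ρ0,
    ∀ z ∈ U ×ˢ ball (0 : A) ρ, ‖F ρ z - tr ρ0 F N z‖ ≤ K * (‖z.2‖ ^ N + Real.exp (-c / (4 * ρ))) := by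
  set K1 := 2 ^ N * ((2 / rr ρ0 0) ^ N * max M 0 + Kc C c N * 2) with hK1
  set K2 := C + ∑ n ∈ Finset.range N, Kc C c n * 2 with hK2
  have p0 := rr_pos h.pos 0
  have k1 : 0 ≤ K1 := by have := h.Kc_nn N; positivity
  have k2 : 0 ≤ K2 := add_nonneg h.Cnn (Finset.sum_nonneg fun n _ => by
    have := h.Kc_nn n; positivity)
  refine ⟨K1 + K2, by positivity, fun ρ hρ z hz => ?_⟩
  obtain ⟨k, hk⟩ := exists_scale h.pos hρ
  have pk := rr_pos h.pos k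
  have hc := h.cpos
  have ha := mem_ball_zero_iff.1 hz.2
  obtain ⟨s, b, h0, h1, h2, h3, h4⟩ := exists_ray (ha.trans_le hk.2)
  have hb : (z.1, b) ∈ U ×ˢ ball (0 : A) 1 := ⟨hz.1, mem_ball_zero_iff.2 h3⟩
  have hz1 : z ∈ U ×ˢ ball (0 : A) 1 :=
    ⟨hz.1, mem_ball_zero_iff.2 (ha.trans_le (hρ.2.trans h.le1))⟩
  have hs : ‖(s : ℂ)‖ = s := by rw [Complex.norm_real, Real.norm_of_nonneg h0]
  have s1 : s ≤ 1 := h1.le.trans ((rr_mem h.pos k).2.trans h.le1)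
  have e1 := h.fam.rem N (fun n _ => h.summ n) hb k (a := s) (by rwa [mem_ball_zero_iff, hs])
  have e2 : ∑ n ∈ Finset.range N, (s : ℂ) ^ n • cl (ray ρ0 F) n (z.1, b) = tr ρ0 F N z :=
    Finset.sum_congr rfl fun n _ => by
      have := h.cf_smul n hb (s := s) (by simpa only [h4] using hz1)
      simp only [h4] at this
      exact this.symm
  have e3 : ray ρ0 F k (z.1, b) s = F (rr ρ0 k) z := by simp only [ray, h4]
  rw [e2, e3, hs] at e1
  have e4 := h.inc _ (rr_mem h.pos k) ρ hk z hz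
  have x1 : Real.exp (-c / (2 * rr ρ0 k)) ≤ Real.exp (-c / (4 * ρ)) := by
    rw [Real.exp_le_exp, neg_div, neg_div, neg_le_neg_iff]
    exact div_le_div_of_nonneg_left hc.le (by positivity) (by linarith [hk.1])
  have x2 : Real.exp (-c / rr ρ0 k) ≤ Real.exp (-c / (4 * ρ)) := by
    rw [Real.exp_le_exp, neg_div, neg_div, neg_le_neg_iff]
    exact div_le_div_of_nonneg_left hc.le pk (by linarith [hk.1, hρ.1])
  have y1 : ∑ j ∈ Finset.range k, (2 / rr ρ0 (j + 1)) ^ N * (C * Real.exp (-c / rr ρ0 j)) ≤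
      Kc C c N * 2 := by
    refine ((h.summ N).sum_le_tsum _ fun j _ => h.term_nn N j).trans ?_
    have := h.tsum_le N 0
    simp only [zero_add] at this
    refine this.trans ?_
    have : Real.exp (-c / (2 * rr ρ0 0)) ≤ 1 := Real.exp_le_one_iff.2
      (div_nonpos_of_nonpos_of_nonneg (by linarith) (by positivity))
    have := h.Kc_nn N
    nlinarith
  have y2 : s ^ N * ((2 / rr ρ0 0) ^ N * M + ∑ j ∈ Finset.range k,
      (2 / rr ρ0 (j + 1)) ^ N * (C * Real.exp (-c / rr ρ0 j))) ≤ K1 * ‖z.2‖ ^ N := by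
    calc _ ≤ (2 * ‖z.2‖) ^ N * ((2 / rr ρ0 0) ^ N * max M 0 + Kc C c N * 2) := by
          refine (mul_le_mul_of_nonneg_left (add_le_add (mul_le_mul_of_nonneg_left
            (le_max_left M 0) (by positivity)) y1) (by positivity)).trans ?_
          have := h.Kc_nn N
          gcongr
      _ = _ := by rw [hK1, mul_pow]; ring
  have y3 : ∑ n ∈ Finset.range N, s ^ n * ∑' j, (2 / rr ρ0 (k + j + 1)) ^ n *
      (C * Real.exp (-c / rr ρ0 (k + j))) ≤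
      (∑ n ∈ Finset.range N, Kc C c n * 2) * Real.exp (-c / (4 * ρ)) := by
    rw [Finset.sum_mul]
    refine Finset.sum_le_sum fun n _ => ?_
    have := h.Kc_nn n
    refine (mul_le_of_le_one_left (tsum_nonneg fun j => h.term_nn n (k + j))
      (pow_le_one₀ h0 s1)).trans ((h.tsum_le n k).trans ?_)
    nlinarith
  have := norm_sub_le_norm_sub_add_norm_sub (F ρ z) (F (rr ρ0 k) z) (tr ρ0 F N z)
  have w1 := mul_le_mul_of_nonneg_left x2 h.Cnn
  have w2 : 0 ≤ K1 * Real.exp (-c / (4 * ρ)) := by positivity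
  have w3 : 0 ≤ K2 * ‖z.2‖ ^ N := by positivity
  have w4 : (K1 + K2) * (‖z.2‖ ^ N + Real.exp (-c / (4 * ρ))) = K1 * ‖z.2‖ ^ N +
      K1 * Real.exp (-c / (4 * ρ)) + K2 * ‖z.2‖ ^ N + (C * Real.exp (-c / (4 * ρ)) +
      (∑ n ∈ Finset.range N, Kc C c n * 2) * Real.exp (-c / (4 * ρ))) := by rw [hK2]; ring
  linarith

/-- reality -/
theorem Sc.cf_conj (h : Sc U ρ0 M C c F) (n : ℕ) (κ : G →L[ℝ] G)
    (hκ : ∀ (s : ℂ) (g : G), κ (s • g) = (starRingEnd ℂ s) • κ g) (σ : Y → Y) (τ : A → A)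
    (hτ : ∀ (s : ℂ) (a : A), τ (s • a) = (starRingEnd ℂ s) • τ a) {z : Y × A}
    (hz : z ∈ U ×ˢ ball (0 : A) 1) (hz' : (σ z.1, τ z.2) ∈ U ×ˢ ball (0 : A) 1)
    (hF : ∀ ρ ∈ Ioc 0 ρ0, ∀ w ∈ U ×ˢ ball (0 : A) ρ, F ρ (σ w.1, τ w.2) = κ (F ρ w)) :
    cf ρ0 F n (σ z.1, τ z.2) = κ (cf ρ0 F n z) :=
  h.fam.cl_conj (h.summ n) κ hκ hz hz' fun k μ hμ => by
    simpa only [ray, hτ] using hF _ (rr_mem h.pos k) _ (mem_ray hz hμ)

end Crest.Agent.N250.EX

end
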